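import Vale.Agent.P366.H707.S.Far
import Vale.Agent.P366.H208.M.Sl

/-! Smoothness of the correction of the flux field, up to the boundary of the exterior. -/

open MeasureTheory Metric Filter Topology Set
open scoped ContDiff ENNReal

noncomputable section
namespace Vale.Agent.P366.KSS

open Vale.Agent.P366 (pd E flux sphI)
open Vale.Agent.P366.H353.N
open Vale.Agent.P366.Kerr (NullCone Psi pt sp indG indK lapse tng con sgn ksL ein IsKS FutTimelike
  DECatL IsGraph IsSliceL HasDEC)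
open Vale.Agent.P366.KSN (Y dts sg BO BO_th)
open Vale.Agent.P366.KSL
open Vale.Agent.P366.SH (bet alp kb Bk)

variable {n : ℕ} {C : NullCone n} {l : Fin (n + 1) → E (n + 1) → ℝ} {V : E (n + 1) → ℝ}
  {f : E n → ℝ} {D D₀ : Stmt.Exterior n} {p : E (n + 1)} {x y : E n}

theorem spd_cd (hf : ContDiffAt ℝ ∞ f y) (i : Fin n) : ContDiffAt ℝ ∞ (Stmt.pd i f) y :=
  (KSN.pd_contDiffAt hf i).congr_of_eventuallyEq (Vale.Agent.P366.H375.pd_ev hf i)

theorem tng_cd (hf : ContDiffAt ℝ ∞ f y) (i : Fin n) (a : Fin (n + 1)) :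
    ContDiffAt ℝ ∞ (fun y => tng f i y a) y := by
  refine Fin.cases ?_ (fun j => ?_) a
  · simpa only [tng, Fin.cons_zero] using spd_cd hf i
  · simpa only [tng, Fin.cons_succ] using contDiffAt_const

theorem con_cd (hf : ContDiffAt ℝ ∞ f y) (a : Fin (n + 1)) :
    ContDiffAt ℝ ∞ (fun y => con f y a) y := by
  refine Fin.cases ?_ (fun j => ?_) a
  · simpa only [con, Fin.cons_zero] using contDiffAt_const
  · simpa only [con, Fin.cons_succ] using (spd_cd hf j).neg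

theorem ksL_cd (hK : IsKS l V p) (a b : Fin (n + 1)) :
    ContDiffAt ℝ ∞ (fun q => ksL l V q a b) p :=
  contDiffAt_const.add ((hK.smV.mul (hK.sml a)).mul (hK.sml b))

theorem ksL_gr (hK : IsKS l V (pt (f y) y)) (hf : ContDiffAt ℝ ∞ f y) (a b : Fin (n + 1)) :
    ContDiffAt ℝ ∞ (fun y => ksL l V (pt (f y) y) a b) y :=
  H474.L.cd_gr (F := fun q => ksL l V q a b) (ksL_cd hK a b) hf

theorem upL_gr (hK : IsKS l V (pt (f y) y)) (hf : ContDiffAt ℝ ∞ f y) (a b : Fin (n + 1)) :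
    ContDiffAt ℝ ∞ (fun y => Stmt.up (ksL l V) a b (pt (f y) y)) y :=
  H474.L.cd_gr (F := fun q => Stmt.up (ksL l V) a b q)
    (Vale.Agent.P366.Bridge.contDiffAt_inv_entry (A := Stmt.mat (ksL l V))
      (fun a b => ksL_cd hK a b) (det_ksL hK.null.self_of_nhds) a b) hf

theorem indG_cd (hK : IsKS l V (pt (f y) y)) (hf : ContDiffAt ℝ ∞ f y) (i j : Fin n) :
    ContDiffAt ℝ ∞ (fun y => indG (ksL l V) f y i j) y :=
  ContDiffAt.sum fun a _ => ContDiffAt.sum fun b _ =>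
    ((ksL_gr hK hf a b).mul (tng_cd hf i a)).mul (tng_cd hf j b)

theorem upi_cd (hS : IsSliceL C l V f D₀) (hy : 0 ≤ D₀.F y) (i j : Fin n) :
    ContDiffAt ℝ ∞ (Stmt.up (indG (ksL l V) f) i j) y := by
  have hK := hS.ks y hy
  have hf := hS.smf y hy
  refine Vale.Agent.P366.Bridge.contDiffAt_inv_entry (A := Stmt.mat (indG (ksL l V) f))
    (fun a b => indG_cd hK hf a b) ?_ i j
  rw [det_indG hK (hf.differentiableAt (by simp))]
  exact (bb_pos hS hy).ne'

theorem lapse_inv_cd (hS : IsSliceL C l V f D₀) (hy : 0 ≤ D₀.F y) :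
    ContDiffAt ℝ ∞ (fun y => (lapse (ksL l V) f y)⁻¹) y := by
  have hK := hS.ks y hy
  have hf := hS.smf y hy
  have e : (fun y => (lapse (ksL l V) f y)⁻¹) = fun y =>
      √(-∑ a, ∑ b, Stmt.up (ksL l V) a b (pt (f y) y) * con f y a * con f y b) := by
    funext z
    unfold lapse
    rw [one_div, inv_inv]
  rw [e]
  refine ContDiffAt.sqrt (ContDiffAt.neg (ContDiffAt.sum fun a _ => ContDiffAt.sum fun b _ =>
    ((upL_gr hK hf a b).mul (con_cd hf a)).mul (con_cd hf b))) ?_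
  rw [up_con hK (hf.differentiableAt (by simp))]
  exact (bb_pos hS hy).ne'

theorem bet_cd (hK : IsKS l V (pt (f y) y)) (hf : ContDiffAt ℝ ∞ f y) (ξ : Fin (n + 1) → ℝ)
    (j : Fin n) : ContDiffAt ℝ ∞ (bet (ksL l V) f ξ j) y := by
  show ContDiffAt ℝ ∞ (fun y => ∑ a, ∑ b, ksL l V (pt (f y) y) a b * ξ a * tng f j y b) y
  exact ContDiffAt.sum fun a _ => ContDiffAt.sum fun b _ =>
    ((ksL_gr hK hf a b).mul contDiffAt_const).mul (tng_cd hf j b)

/-- the correction is smooth on the exterior -/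
theorem Bk_cd (hS : IsSliceL C l V f D₀) (hy : 0 ≤ D₀.F y) {k : Stmt.Field n}
    (hk : ∀ i j, ContDiffAt ℝ ∞ (fun y => k y i j) y) (ξ : Fin (n + 1) → ℝ) (i : Fin n) :
    ContDiffAt ℝ ∞ (Bk (ksL l V) f k ξ i) y :=
  (lapse_inv_cd hS hy).mul (ContDiffAt.sum fun m _ => (upi_cd hS hy i m).mul
    (ContDiffAt.sum fun j _ => ContDiffAt.sum fun p _ => (upi_cd hS hy j p).mul
      ((hk m j).mul (bet_cd (hS.ks y hy) (hS.smf y hy) ξ p))))

/-! ### the flux -/

theorem momT_add {k : Stmt.Field n} (hg : ∀ i j, D.g y i j = D₀.g y i j)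
    (hK : ∀ i j, D.K y i j = D₀.K y i j + k y i j) (ht : Stmt.tr D₀.g k y = 0) (i j : Fin n) :
    Stmt.momT D.g D.K y i j = Stmt.momT D₀.g D₀.K y i j + k y i j := by
  have e : D.g y = D₀.g y := by
    funext i j
    exact hg i j
  have hu : ∀ i j, Stmt.up D.g i j y = Stmt.up D₀.g i j y := fun i j => by
    unfold Stmt.up Stmt.mat
    rw [e]
  have htr : Stmt.tr D.g D.K y = Stmt.tr D₀.g D₀.K y := by
    have h1 : Stmt.tr D.g D.K y = Stmt.tr D₀.g D₀.K y + Stmt.tr D₀.g k y := by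
      unfold Stmt.tr
      simp only [hu, hK, mul_add, Finset.sum_add_distrib]
    rw [h1, ht, add_zero]
  unfold Stmt.momT
  rw [htr, hK, e]
  ring

theorem energy_eq [hn : Fact (3 ≤ n)] {R : ℝ}
    (hg : ∀ y : E n, R < ‖y‖ → ∀ i j, D.g y i j = D₀.g y i j)
    {m : ℝ} (hm : D.IsEnergy m) : D₀.IsEnergy m := by
  refine Tendsto.congr' ?_ hm
  filter_upwards [eventually_gt_atTop (max R 0)] with r hr
  have hr0 : 0 < r := (le_max_right _ _).trans_lt hr
  have hrR : R < r := (le_max_left _ _).trans_lt hr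
  have hc : (((n : ℝ) - 1) * om n) ≠ 0 := by
    have h3 : (3 : ℝ) ≤ n := by exact_mod_cast hn.out
    exact (mul_pos (by linarith) om_pos).ne'
  refine mul_left_cancel₀ hc ?_
  have e1 := KSN.X5.flx_eq (fun (i : Fin n) x => (∑ j, (Stmt.pd j (fun y => D.g y i j) x -
    Stmt.pd i (fun y => D.g y j j) x)) / 2) r
  have e2 := KSN.X5.flx_eq (fun (i : Fin n) x => (∑ j, (Stmt.pd j (fun y => D₀.g y i j) x -
    Stmt.pd i (fun y => D₀.g y j j) x)) / 2) r
  rw [← e1, ← e2, ← H474.W.flux_sphInt, ← H474.W.flux_sphInt]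
  refine H474.W.flux_congr hr0 fun i y hy => ?_
  have hev : ∀ᶠ z in 𝓝 y, R < ‖z‖ := continuous_norm.continuousAt.eventually
    (lt_mem_nhds (show R < ‖y‖ by rw [hy]; exact hrR))
  have hp : ∀ a b c, Stmt.pd a (fun z => D.g z b c) y = Stmt.pd a (fun z => D₀.g z b c) y := by
    intro a b c
    refine (pd_germ ?_ a).self_of_nhds
    filter_upwards [hev] with z hz
    exact hg z hz b c
  simp only [hp]

/-- **(s3)** The flux at infinity of the corrected flux field is the energy in the frame of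
`(e0 a, a)`, with the energy and the momentum of `D`. -/
theorem flux_shear [hn : Fact (3 ≤ n)] (hS : IsSliceL C l V f D₀) (hAF₀ : D₀.IsAF) (hAF : D.IsAF)
    {k : Stmt.Field n} (hg : ∀ y, 0 ≤ D₀.F y → ∀ i j, D.g y i j = D₀.g y i j)
    (hK : ∀ y, 0 ≤ D₀.F y → ∀ i j, D.K y i j = D₀.K y i j + k y i j)
    (ht : ∀ y, 0 ≤ D₀.F y → Stmt.tr D₀.g k y = 0)
    (hk : ∀ i j, Stmt.Smooth fun y => k y i j)
    {m : ℝ} {P : Fin n → ℝ} (hm : D.IsEnergy m) (hP : D.IsMomentum P) (a : Fin n → ℝ) :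
    Tendsto (flux fun i y => Fa l V f a i y + Bk (ksL l V) f k (xi a) i y) atTop
      (𝓝 (((n : ℝ) - 1) * om n * (Shell.e0 a * m + ∑ i, a i * P i))) := by
  have h4 := af4 hS hAF₀
  obtain ⟨q, hq, o⟩ := H474.L.AF4.ord h4
  obtain ⟨R, hR, h⟩ := H474.L.farG hS
  obtain ⟨q₁, hq₁, a₁⟩ := hAF₀
  obtain ⟨q₂, hq₂, a₂⟩ := hAF
  set s := min q₁ q₂ + 1 with hs
  have i0 : Fin n := ⟨0, by have := hn.out; omega⟩
  have hkB : ∀ i j, BO s fun y => k y i j := by
    intro i j
    have b1 : BO s fun y => D₀.K y i j := (KSN.BO.of_bigO (a₁ i j i0 i0).2.2.2.1).mono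
      (by rw [hs]; linarith [min_le_left q₁ q₂])
    have b2 : BO s fun y => D.K y i j := (KSN.BO.of_bigO (a₂ i j i0 i0).2.2.2.1).mono
      (by rw [hs]; linarith [min_le_right q₁ q₂])
    refine (b2.sub b1).congr (R := R) fun y hy => ?_
    rw [hK y (h.hF y hy)]
    ring
  have hks : ∀ y : E n, R < ‖y‖ → ∀ i j, k y i j = k y j i := by
    intro y hy i j
    have e1 := hK y (h.hF y hy) i j
    have e2 := hK y (h.hF y hy) j i
    have e3 := (D.symm y i j).2
    have e4 := (D₀.symm y i j).2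
    linarith
  have hgf : ∀ y : E n, R < ‖y‖ → ∀ i j, D.g y i j = D₀.g y i j := fun y hy => hg y (h.hF y hy)
  refine flux_corr (k := fun j i y => k y j i) (s := q + s) hS h4 ⟨R, fun y hy j i => ?_⟩ ?_
    (fun i => ?_) ⟨R, fun y hy => ⟨?_, fun i => ?_⟩⟩ (energy_eq hgf hm) hP
  · exact momT_add (hgf y hy) (hK y (h.hF y hy)) (ht y (h.hF y hy)) j i
  · have := lt_min hq₁ hq₂
    rw [hs]
    linarith
  · have := BO_Bk h o hkB hks (xi a) i
    exact this.congr (R := R) fun y _ => by simp only [xi, Fin.cons_succ]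
  · have e : Stmt.mat D.g y = Stmt.mat D₀.g y := by
      ext i j
      exact hgf y hy i j
    rw [e]
    exact h.det_ne hy
  · exact (Bk_cd hS (h.hF y hy) (fun i j => (hk i j).contDiffAt) (xi a) i).continuousAt

end Vale.Agent.P366.KSS
end
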