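import Vale.Agent.P366.H707.D.EqSharp
import Vale.Agent.P366.Kerr.DefsK

/-! If the difference of the second fundamental forms vanishes, the data are those of the slice. -/

open MeasureTheory Metric Filter Topology Set
open scoped ContDiff ENNReal

noncomputable section
namespace Vale.Agent.P366.KSS

open Vale.Agent.P366 (pd E flux)
open Vale.Agent.P366.H353.N
open Vale.Agent.P366.Kerr (NullCone Psi pt sp indG indK sgn ksL ksG ein nul IsKS FutTimelike DECatL
  IsGraph IsSliceL HasDEC MixDEC IsFut IsGradient schw IsSchwSlice SharpAt dif IsRef MixS)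
open Vale.Agent.P366.KSN (Y dts sg OO)
open Vale.Agent.P366.KSL
open Vale.Agent.P366.KSD

variable {n : ℕ} {C : NullCone n} {l : Fin (n + 1) → E (n + 1) → ℝ} {V : E (n + 1) → ℝ}
  {f lam : E n → ℝ} {D D₀ : Stmt.Exterior n} {x y : E n} {ξ : Fin (n + 1) → ℝ}

theorem dif_cont (D₀ D : Stmt.Exterior n) (i j : Fin n) : Continuous fun y => dif D₀ D y i j :=
  ((D.smooth i j).2.continuous).sub ((D₀.smooth i j).2.continuous)

theorem dif_smooth (D₀ D : Stmt.Exterior n) (i j : Fin n) :
    Stmt.Smooth fun y => dif D₀ D y i j := by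
  show ContDiff ℝ ∞ fun y => D.K y i j - D₀.K y i j
  exact ((D.smooth i j).2).sub ((D₀.smooth i j).2)

theorem dif_symm (D₀ D : Stmt.Exterior n) (y : E n) (i j : Fin n) :
    dif D₀ D y i j = dif D₀ D y j i := by
  unfold dif
  rw [(D.symm y i j).2, (D₀.symm y i j).2]

/-- vanishing at the interior points -/
theorem dif_zero [Fact (3 ≤ n)] (hS : IsSliceL C l V f D₀) (hF : D₀.F = D.F)
    (h0 : ∀ y, 0 < D.F y → ∀ i j, dif D₀ D y i j = 0) (hy : 0 ≤ D.F y) (i j : Fin n) :
    dif D₀ D y i j = 0 := by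
  have h := ext_cl hS.dom (g := fun y => -(dif D₀ D y i j) ^ 2)
    (fun z _ => (((dif_cont D₀ D i j).pow 2).neg).continuousAt)
    (fun z hz => by
      have h1 : 0 < D.F z := by
        rw [← hF]
        exact F_int hz
      rw [h0 z h1 i j]
      simp) (y := y) (by rw [hF]; exact hy)
  have h2 : dif D₀ D y i j ^ 2 ≤ 0 := by linarith
  exact pow_eq_zero_iff two_ne_zero |>.1 (le_antisymm h2 (sq_nonneg _))

/-- the data are those of the slice -/
theorem slice_of_eq [Fact (3 ≤ n)] (hS : IsSliceL C l V f D₀) (hF : D₀.F = D.F)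
    (hg : D₀.g = D.g) (h0 : ∀ y, 0 < D.F y → ∀ i j, dif D₀ D y i j = 0) :
    IsSliceL C l V f D where
  smf := fun y hy => hS.smf y (by rw [hF]; exact hy)
  bdr := hS.bdr
  ks := fun y hy => hS.ks y (by rw [hF]; exact hy)
  dom := fun y => by rw [← hF]; exact hS.dom y
  bdF := fun x hx h => by rw [← hF]; exact hS.bdF x hx h
  nor := hS.nor
  asy := hS.asy
  met := fun y hy i j => by rw [← hg]; exact hS.met y (by rw [hF]; exact hy) i j
  sff := fun y hy i j => by
    have h1 := dif_zero hS hF h0 hy i j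
    have h2 := hS.sff y (by rw [hF]; exact hy) i j
    rw [← h2]
    unfold dif at h1
    linarith

theorem gradient_of_eq (hL : IsGradient C lam l f D₀) (hF : D₀.F = D.F) :
    IsGradient C lam l f D where
  smL := fun y hy => hL.smL y (by rw [hF]; exact hy)
  eqL := hL.eqL
  grad := fun y hy => hL.grad y (by rw [hF]; exact hy)

/-- The case of equality for the data with a difference `k = K - K₀` which vanishes at the interior
points. -/
theorem schwarz_ref [Fact (3 ≤ n)] (hS : IsSliceL C l V f D₀) (hR : IsRef l V f ξ D₀ D)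
    (hL : IsGradient C lam l f D) (hξ : IsFut ξ) (hD : MixS l V f ξ D) (hAF : D.IsAF)
    (hT : D.Trapped) {m : ℝ} {P : Fin n → ℝ} (hm : D.IsEnergy m) (hP : D.IsMomentum P)
    (hr : ∀ i, ξ 0 * P i = - (ξ i.succ * m))
    (hle : √(m ^ 2 - ∑ i, P i ^ 2) ≤
      1 / 2 * (SI C.toDat.dt / om n) ^ (((n : ℝ) - 2) / ((n : ℝ) - 1)))
    (h0 : ∀ y, 0 < D.F y → ∀ i j, dif D₀ D y i j = 0) :
    ∃ c r₀, IsSchwSlice c r₀ f D :=
  schwarz_data_le (slice_of_eq hS hR.dom hR.met h0) hL hξ hD.dec hD.geo hD.mix hAF hT hm hP hr hle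

end Vale.Agent.P366.KSS
end
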