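import Vale.Agent.P366.H707.S.Flux
import Vale.Agent.P366.H353.S.Defs

/-! The flux at infinity of the flux field with the correction of the shear. -/

open MeasureTheory Metric Filter Topology Set
open scoped ContDiff ENNReal

noncomputable section
namespace Vale.Agent.P366.KSS

open Vale.Agent.P366 (pd E flux sphI)
open Vale.Agent.P366.H353.N
open Vale.Agent.P366.Kerr (NullCone Psi pt sp indG indK lapse tng sgn ksL ein IsKS FutTimelike
  DECatL IsGraph IsSliceL HasDEC)
open Vale.Agent.P366.KSN (Y dts sg BO BO_th)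
open Vale.Agent.P366.KSL
open Vale.Agent.P366.SH (bet alp kb Bk)
open Vale.Agent.P366.H474.L (FarG Ord hp ep lapse_ks spdf sgn0 sgns)

variable {n : ℕ} {C : NullCone n} {l : Fin (n + 1) → E (n + 1) → ℝ} {V : E (n + 1) → ℝ}
  {f f₁ : E n → ℝ} {D D₀ : Stmt.Exterior n} {p : E (n + 1)} {x y : E n} {R q s : ℝ}

theorem abs_sqrt_sub (v : ℝ) : |√(1 + v) - 1| ≤ |v| := by
  have h0 : 0 ≤ √(1 + v) := Real.sqrt_nonneg _
  rcases le_or_gt 0 (1 + v) with h | h
  · have h1 : √(1 + v) ^ 2 = 1 + v := Real.sq_sqrt h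
    have h2 : v = (√(1 + v) - 1) * (√(1 + v) + 1) := by linear_combination -h1
    have h3 : |v| = |√(1 + v) - 1| * (√(1 + v) + 1) := by
      conv_lhs => rw [h2]
      rw [abs_mul, abs_of_nonneg (by linarith : (0:ℝ) ≤ √(1 + v) + 1)]
    rw [h3]
    have h4 := abs_nonneg (√(1 + v) - 1)
    nlinarith
  · rw [Real.sqrt_eq_zero'.2 h.le]
    rw [abs_of_neg (by linarith : v < 0)]
    norm_num
    linarith

/-- the covector `G(ξ, T_j)` -/
theorem bet_ks (hf : ContDiffAt ℝ ∞ f y) (ξ : Fin (n + 1) → ℝ) (j : Fin n) :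
    bet (ksL l V) f ξ j y = ξ j.succ - ξ 0 * pd j f y + (∑ a, ξ a * hp l V f a j.succ y) +
      (∑ a, ξ a * hp l V f a 0 y) * pd j f y := by
  unfold bet GC.ip GC.Tv
  have h1 : ∀ a : Fin (n + 1), ∑ b, ksL l V (pt (f y) y) a b * ξ a * tng f j y b =
      ξ a * ksL l V (pt (f y) y) a 0 * pd j f y + ξ a * ksL l V (pt (f y) y) a j.succ := by
    intro a
    rw [Fin.sum_univ_succ]
    simp only [tng, Fin.cons_zero, Fin.cons_succ, spdf hf]
    have h2 : ∑ x : Fin n, ksL l V (pt (f y) y) a x.succ * ξ a *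
        Pi.single (M := fun _ => ℝ) j 1 x = ksL l V (pt (f y) y) a j.succ * ξ a := by
      rw [Finset.sum_eq_single j]
      · simp
      · intro b _ hb
        simp [hb]
      · simp
    rw [h2]
    ring
  simp only [h1]
  have e : ∀ a b, ksL l V (pt (f y) y) a b = (if a = b then sgn a else 0) + hp l V f a b y :=
    fun _ _ => rfl
  simp only [e, mul_add, add_mul, Finset.sum_add_distrib]
  have e1 : ∑ a, ξ a * (if a = 0 then sgn a else 0) * pd j f y = -(ξ 0 * pd j f y) := by
    rw [Finset.sum_eq_single 0]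
    · rw [if_pos rfl, sgn0]; ring
    · intro b _ hb
      rw [if_neg hb]; ring
    · simp
  have e2 : ∑ a, ξ a * (if a = j.succ then sgn a else 0) = ξ j.succ := by
    rw [Finset.sum_eq_single j.succ]
    · rw [if_pos rfl, sgns]; ring
    · intro b _ hb
      rw [if_neg hb]; ring
    · simp
  rw [e1, e2, Finset.sum_mul]
  ring

theorem BO_bet (h : FarG l V f D₀ R) (o : Ord l V f q) (ξ : Fin (n + 1) → ℝ) (j : Fin n) :
    BO q fun y => bet (ksL l V) f ξ j y - ξ j.succ := by
  have h1 : BO q fun y => ξ 0 * pd j f y := (o.df j).cmul _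
  have h2 : BO q fun y => ∑ a, ξ a * hp l V f a j.succ y := BO.sum _ fun a => (o.h a _).cmul _
  have h3 : BO q fun y => ∑ a, ξ a * hp l V f a 0 y := BO.sum _ fun a => (o.h a _).cmul _
  have h4 := h3.mulb ((o.df j).mono o.hq.le)
  refine ((h2.sub h1).add h4).congr (R := R) fun y hy => ?_
  rw [bet_ks (h.smf y hy)]
  ring

theorem BO_lapse (h : FarG l V f D₀ R) (o : Ord l V f q) :
    BO q fun y => (lapse (ksL l V) f y)⁻¹ - 1 := by
  refine ((H474.L.FarG.BO_ep o).le (R := R) fun y hy => ?_)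
  rw [lapse_ks (h.ks y hy) (h.smf y hy), one_div, inv_inv]
  exact abs_sqrt_sub _

variable {k : Stmt.Field n} {a : Fin n → ℝ}

theorem up_eq (h : FarG l V f D₀ R) (hy : R < ‖y‖) (i j : Fin n) :
    Stmt.up (indG (ksL l V) f) i j y = Stmt.up D₀.g i j y := by
  unfold Stmt.up Stmt.mat
  have e : indG (ksL l V) f y = D₀.g y := by
    funext i j
    exact (h.met y hy i j).symm
  rw [e]

theorem BO_upi (h : FarG l V f D₀ R) (o : Ord l V f q) (i j : Fin n) :
    BO q fun y => Stmt.up (indG (ksL l V) f) i j y - kd i j :=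
  (h.BO_up o i j).congr (R := R) fun y hy => by rw [up_eq h hy]

theorem kd_sum (i : Fin n) (F : Fin n → ℝ) : ∑ j, kd i j * F j = F i := by simp [kd]

/-- the covector `k(β, .)` far out -/
theorem BO_kb (h : FarG l V f D₀ R) (o : Ord l V f q) (hk : ∀ i j, BO s fun y => k y i j)
    (ξ : Fin (n + 1) → ℝ) (m : Fin n) :
    BO (q + s) fun y => kb (indG (ksL l V) f) k (bet (ksL l V) f ξ) m y -
      ∑ j, ξ j.succ * k y m j := by
  have h1 : ∀ j p, BO (q + s) fun y => (Stmt.up (indG (ksL l V) f) j p y - kd j p) *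
      (k y m j * ξ p.succ) := fun j p =>
    (BO_upi h o j p).mul (((hk m j).cmul (ξ p.succ)).congr (R := R) fun y _ => mul_comm _ _)
  have h2 : ∀ j p, BO (q + s) fun y => Stmt.up (indG (ksL l V) f) j p y *
      (k y m j * (bet (ksL l V) f ξ p y - ξ p.succ)) := by
    intro j p
    have a1 : BO 0 fun y => Stmt.up (indG (ksL l V) f) j p y :=
      (((BO_upi h o j p).mono o.hq.le).add (BO.const (kd j p))).congr (R := R) fun y _ => by ring
    have a2 := (BO_bet h o ξ p).mul (hk m j)
    refine (a1.bmul a2).congr (R := R) fun y _ => by ring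
  refine ((BO.sum Finset.univ fun j => BO.sum Finset.univ fun p => h1 j p).add
    (BO.sum Finset.univ fun j => BO.sum Finset.univ fun p => h2 j p)).congr (R := R)
    fun y _ => ?_
  unfold kb
  simp only [← Finset.sum_add_distrib]
  have e1 : ∀ j, ξ j.succ * k y m j = ∑ p : Fin n, kd j p * (k y m j * ξ p.succ) := fun j => by
    rw [kd_sum]; ring
  simp only [e1, ← Finset.sum_sub_distrib]
  exact Finset.sum_congr rfl fun j _ => Finset.sum_congr rfl fun p _ => by ring

/-- the correction of the flux far out -/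
theorem BO_Bk (h : FarG l V f D₀ R) (o : Ord l V f q) (hk : ∀ i j, BO s fun y => k y i j)
    (hks : ∀ y : E n, R < ‖y‖ → ∀ i j, k y i j = k y j i)
    (ξ : Fin (n + 1) → ℝ) (i : Fin n) :
    BO (q + s) fun y => Bk (ksL l V) f k ξ i y - ∑ j : Fin n, ξ j.succ * k y j i := by
  have hs : ∀ m, BO s fun y => kb (indG (ksL l V) f) k (bet (ksL l V) f ξ) m y := by
    intro m
    have a1 := (BO_kb h o hk ξ m).mono (show s ≤ q + s by linarith [o.hq])
    have a2 : BO s fun y => ∑ j : Fin n, ξ j.succ * k y m j :=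
      BO.sum _ fun j => (hk m j).cmul _
    exact (a1.add a2).congr (R := R) fun y _ => by ring
  have h1 : BO (q + s) fun y => ∑ m, (Stmt.up (indG (ksL l V) f) i m y - kd i m) *
      kb (indG (ksL l V) f) k (bet (ksL l V) f ξ) m y :=
    BO.sum _ fun m => (BO_upi h o i m).mul (hs m)
  have h2 : BO s fun y => ∑ m, Stmt.up (indG (ksL l V) f) i m y *
      kb (indG (ksL l V) f) k (bet (ksL l V) f ξ) m y := by
    refine BO.sum _ fun m => ?_
    have a1 : BO 0 fun y => Stmt.up (indG (ksL l V) f) i m y :=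
      (((BO_upi h o i m).mono o.hq.le).add (BO.const (kd i m))).congr (R := R) fun y _ => by ring
    exact a1.bmul (hs m)
  have h3 := (BO_lapse h o).mul h2
  refine ((h3.add h1).add (BO_kb h o hk ξ i)).congr (R := R) fun y hy => ?_
  unfold Bk
  have e1 : ∑ m, (Stmt.up (indG (ksL l V) f) i m y - kd i m) *
      kb (indG (ksL l V) f) k (bet (ksL l V) f ξ) m y =
      ∑ m, Stmt.up (indG (ksL l V) f) i m y * kb (indG (ksL l V) f) k (bet (ksL l V) f ξ) m y -
      kb (indG (ksL l V) f) k (bet (ksL l V) f ξ) i y := by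
    simp only [sub_mul, Finset.sum_sub_distrib]
    rw [kd_sum i fun m => kb (indG (ksL l V) f) k (bet (ksL l V) f ξ) m y]
  rw [e1]
  have e2 : ∑ j : Fin n, ξ j.succ * k y j i = ∑ j : Fin n, ξ j.succ * k y i j :=
    Finset.sum_congr rfl fun j _ => by rw [hks y hy i j]
  rw [e2]
  ring

end Vale.Agent.P366.KSS
end
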