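import Vale.Agent.P366.H222.K.Frame

/-! The flux at infinity of the flux field with a correction of the momentum. -/

open MeasureTheory Metric Filter Topology Set
open scoped ContDiff ENNReal

noncomputable section
namespace Vale.Agent.P366.KSS

open Vale.Agent.P366 (pd E flux sphI)
open Vale.Agent.P366.H353.N
open Vale.Agent.P366.Kerr (NullCone Psi pt sp indG indK sgn ksL ein IsKS FutTimelike DECatL IsGraph
  IsSliceL HasDEC)
open Vale.Agent.P366.KSN (Y dts sg BO BO_th)
open Vale.Agent.P366.KSL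
open Vale.Agent.P366.H474.W (flux_congr flux_sub flux_neg flux_curl flux_sphInt)

variable {n : ℕ} {C : NullCone n} {l : Fin (n + 1) → E (n + 1) → ℝ} {V : E (n + 1) → ℝ}
  {f f₁ : E n → ℝ} {D D₀ : Stmt.Exterior n} {p : E (n + 1)} {x y : E n}

theorem flux_add {W W' : Fin n → E n → ℝ} {r : ℝ} (hr : 0 < r)
    (hW : ∀ i, ∀ y : E n, ‖y‖ = r → ContinuousAt (W i) y)
    (hW' : ∀ i, ∀ y : E n, ‖y‖ = r → ContinuousAt (W' i) y) :
    flux (fun i y => W i y + W' i y) r = flux W r + flux W' r := by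
  have h1 : flux (fun i y => W i y + W' i y) r = flux (fun i y => W i y - -W' i y) r :=
    flux_congr hr fun i y _ => by ring
  rw [h1, flux_sub (W := W) (W' := fun i y => -W' i y) hr hW fun i y hy => (hW' i y hy).neg,
    flux_neg]
  ring

/-- The momentum part of the superpotential and the momentum flux field of the data. -/
theorem succ_asym [hn : Fact (3 ≤ n)] (hS : IsSliceL C l V f D) (h4 : H474.L.AF4 l V f)
    (j : Fin n) : Tendsto (fun r => flux (fun i y => Stmt.momT D.g D.K y j i) r +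
      flux (Zf l V f j.succ) r) atTop (𝓝 0) := by
  obtain ⟨q, hq, o⟩ := h4.ord
  obtain ⟨R, hR, h⟩ := H474.L.farG hS
  have hq2 : (n : ℝ) - 1 < 2 * q + 1 := by linarith only [hq]
  have : Nontrivial (E n) := by
    have : Nonempty (Fin n) := ⟨⟨0, by have := hn.out; omega⟩⟩
    infer_instance
  have hE : BO (2 * q + 1) fun y => ∑ i, ((Stmt.momT D.g D.K y j i + Zf l V f j.succ i y) -
      ∑ k, pd k (H474.L.Af l V f j i k) y) * (y i / ‖y‖) :=
    BO.sum _ fun i => (h.BO_P o j i).mulb (BO_th i)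
  have h2 := hE.tendsto hq2
  refine h2.congr' ?_
  filter_upwards [eventually_gt_atTop R, eventually_gt_atTop 0] with r hr hr0
  have hy : ∀ y : E n, ‖y‖ = r → R < ‖y‖ := fun y hy => by rw [hy]; exact hr
  have cm : ∀ i (y : E n), ‖y‖ = r → ContinuousAt (fun y => Stmt.momT D.g D.K y j i) y :=
    fun i y hyr => H474.L.momT_cont (h.det_ne (hy y hyr)) j i
  have cz : ∀ i (y : E n), ‖y‖ = r → ContinuousAt (Zf l V f j.succ i) y :=
    fun i y hyr => (h.Zf_cd (hy y hyr) j.succ i).continuousAt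
  have cc : ∀ i (y : E n), ‖y‖ = r →
      ContinuousAt (fun y => ∑ k, pd k (H474.L.Af l V f j i k) y) y :=
    fun i y hyr => tendsto_finsetSum _ fun k _ => KSN.pd_contAt (h.Af_cd (hy y hyr) j i k) k
  have e1 : r ^ (n - 1) * SI (fun θ => (fun y : E n => ∑ i, ((Stmt.momT D.g D.K y j i +
      Zf l V f j.succ i y) - ∑ k, pd k (H474.L.Af l V f j i k) y) * (y i / ‖y‖)) (r • θ)) =
      flux (fun i y => (Stmt.momT D.g D.K y j i + Zf l V f j.succ i y) -
      ∑ k, pd k (H474.L.Af l V f j i k) y) r := rfl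
  rw [e1, flux_sub (W := fun i y => Stmt.momT D.g D.K y j i +
    Zf l V f j.succ i y) (W' := fun i y => ∑ k, pd k (H474.L.Af l V f j i k) y) hr0
    (fun i y hyr => (cm i y hyr).add (cz i y hyr)) (fun i y hyr => cc i y hyr)]
  have hcurl := flux_curl hR (A := H474.L.Af l V f j) (fun i k y hy => h.Af_cd hy j i k)
    (fun i k y _ => by unfold H474.L.Af; ring) hr
  rw [hcurl, sub_zero, flux_add hr0 (W := fun i y => Stmt.momT D.g D.K y j i)
    (W' := fun i y => Zf l V f j.succ i y) (fun i y hyr => cm i y hyr)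
    (fun i y hyr => cz i y hyr)]

/-- The flux at infinity: `D` has the momentum flux field of `D₀` plus `k`, and the correction
`B` of the flux field is `∑ j, a j * k j i` to leading order. No limit of the flux of `k` is
assumed. -/
theorem flux_corr [hn : Fact (3 ≤ n)] (hS : IsSliceL C l V f D₀) (h4 : H474.L.AF4 l V f)
    {a : Fin n → ℝ} {k : Fin n → Fin n → E n → ℝ}
    (hk : ∃ R, ∀ y : E n, R < ‖y‖ → ∀ j i,
      Stmt.momT D.g D.K y j i = Stmt.momT D₀.g D₀.K y j i + k j i y)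
    {B : Fin n → E n → ℝ} {s : ℝ} (hs : (n : ℝ) - 1 < s)
    (hB : ∀ i, BO s fun y => B i y - ∑ j, a j * k j i y)
    (hc : ∃ R, ∀ y : E n, R < ‖y‖ → (Stmt.mat D.g y).det ≠ 0 ∧ ∀ i, ContinuousAt (B i) y)
    {m : ℝ} {P : Fin n → ℝ} (hm : D₀.IsEnergy m) (hP : D.IsMomentum P) :
    Tendsto (flux fun i y => Fa l V f a i y + B i y) atTop (𝓝 (((n : ℝ) - 1) * om n *
      (Shell.e0 a * m + ∑ i, a i * P i))) := by
  obtain ⟨R₀, hR₀, h⟩ := H474.L.farG hS
  obtain ⟨R₁, hk⟩ := hk
  obtain ⟨R₂, hc⟩ := hc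
  have h0 := H474.L.flux_zero hS h4 hm
  have hj := fun j => succ_asym hS h4 j
  have hPj : ∀ j, Tendsto (fun r => flux (fun i y => Stmt.momT D.g D.K y j i) r) atTop
      (𝓝 (((n : ℝ) - 1) * om n * P j)) := by
    intro j
    have h1 := Tendsto.const_mul (((n : ℝ) - 1) * om n) (hP j)
    refine h1.congr fun r => ?_
    rw [← KSN.X5.flx_eq, ← flux_sphInt]
  have hE : BO s fun y => ∑ i, (B i y - ∑ j, a j * k j i y) * (y i / ‖y‖) :=
    BO.sum _ fun i => (((hB i).mulb (BO_th i)))
  have hlim := (((h0.const_mul (-Shell.e0 a)).sub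
    (tendsto_finsetSum Finset.univ fun j _ => (hj j).const_mul (a j))).add
    (tendsto_finsetSum Finset.univ fun j _ => (hPj j).const_mul (a j))).add (hE.tendsto hs)
  have e0 : -Shell.e0 a * -(((n : ℝ) - 1) * om n * m) - ∑ j : Fin n, a j * 0 +
      ∑ j : Fin n, a j * (((n : ℝ) - 1) * om n * P j) + 0 =
      ((n : ℝ) - 1) * om n * (Shell.e0 a * m + ∑ i, a i * P i) := by
    have e2 : ∀ i : Fin n, a i * (((n : ℝ) - 1) * om n * P i) =
        (((n : ℝ) - 1) * om n) * (a i * P i) := fun i => by ring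
    simp only [e2, ← Finset.mul_sum, mul_zero, Finset.sum_const_zero]
    ring
  rw [e0] at hlim
  refine hlim.congr' ?_
  filter_upwards [eventually_gt_atTop (max (max R₀ R₁) (max R₂ 0))] with r hr
  have hr0 : 0 < r := ((le_max_right _ _).trans (le_max_right _ _)).trans_lt hr
  have y0 : ∀ y : E n, ‖y‖ = r → R₀ < ‖y‖ := fun y hy => by
    rw [hy]; exact ((le_max_left _ _).trans (le_max_left _ _)).trans_lt hr
  have y1 : ∀ y : E n, ‖y‖ = r → R₁ < ‖y‖ := fun y hy => by
    rw [hy]; exact ((le_max_right _ _).trans (le_max_left _ _)).trans_lt hr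
  have y2 : ∀ y : E n, ‖y‖ = r → R₂ < ‖y‖ := fun y hy => by
    rw [hy]; exact ((le_max_left _ _).trans (le_max_right _ _)).trans_lt hr
  have cz : ∀ b i (y : E n), ‖y‖ = r → ContinuousAt (Zf l V f b i) y :=
    fun b i y hyr => (h.Zf_cd (y0 y hyr) b i).continuousAt
  have cB : ∀ i (y : E n), ‖y‖ = r → ContinuousAt (B i) y := fun i y hyr => (hc y (y2 y hyr)).2 i
  have cF : ∀ i (y : E n), ‖y‖ = r → ContinuousAt (Fa l V f a i) y := fun i y hyr =>
    ((tendsto_finsetSum _ fun b _ => (cz b i y hyr).const_mul (xi a b)).neg)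
  have cm : ∀ j i (y : E n), ‖y‖ = r → ContinuousAt (fun y => Stmt.momT D.g D.K y j i) y :=
    fun j i y hyr => H474.L.momT_cont (hc y (y2 y hyr)).1 j i
  have cm0 : ∀ j i (y : E n), ‖y‖ = r → ContinuousAt (fun y => Stmt.momT D₀.g D₀.K y j i) y :=
    fun j i y hyr => H474.L.momT_cont (h.det_ne (y0 y hyr)) j i
  have cd : ∀ j i (y : E n), ‖y‖ = r → ContinuousAt (fun y => Stmt.momT D.g D.K y j i -
      Stmt.momT D₀.g D₀.K y j i) y := fun j i y hyr => (cm j i y hyr).sub (cm0 j i y hyr)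
  -- the correction
  have f1 : flux (fun i y => -∑ j, -a j * (Stmt.momT D.g D.K y j i -
      Stmt.momT D₀.g D₀.K y j i)) r = ∑ j, a j * (flux (fun i y => Stmt.momT D.g D.K y j i) r -
      flux (fun i y => Stmt.momT D₀.g D₀.K y j i) r) := by
    rw [flux_lin hr0 (fun j => -a j) (W := fun j i y => Stmt.momT D.g D.K y j i -
      Stmt.momT D₀.g D₀.K y j i) fun j i y hy => cd j i y hy, ← Finset.sum_neg_distrib]
    refine Finset.sum_congr rfl fun j _ => ?_
    rw [flux_sub (W := fun i y => Stmt.momT D.g D.K y j i)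
      (W' := fun i y => Stmt.momT D₀.g D₀.K y j i) hr0 (fun i y hyr => cm j i y hyr)
      (fun i y hyr => cm0 j i y hyr)]
    ring
  have f2 : r ^ (n - 1) * SI (fun θ => (fun y : E n => ∑ i, (B i y - ∑ j, a j * k j i y) *
      (y i / ‖y‖)) (r • θ)) = flux (fun i y => B i y - ∑ j, a j * k j i y) r := rfl
  have f3 : flux (fun i y => B i y - ∑ j, a j * k j i y) r = flux B r -
      flux (fun i y => -∑ j, -a j * (Stmt.momT D.g D.K y j i -
      Stmt.momT D₀.g D₀.K y j i)) r := by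
    rw [← flux_sub (W := B) (W' := fun i y => -∑ j, -a j * (Stmt.momT D.g D.K y j i -
      Stmt.momT D₀.g D₀.K y j i)) hr0 cB fun i y hyr => ContinuousAt.neg
        (tendsto_finsetSum _ fun j _ => (cd j i y hyr).const_mul (-a j))]
    refine flux_congr hr0 fun i y hyr => ?_
    rw [← Finset.sum_neg_distrib]
    congr 1
    refine Finset.sum_congr rfl fun j _ => ?_
    rw [hk y (y1 y hyr) j i]
    ring
  have f4 : flux (Fa l V f a) r = -∑ b, xi a b * flux (Zf l V f b) r :=
    flux_lin hr0 (xi a) (W := Zf l V f) fun b i y hy => cz b i y hy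
  have f5 : flux (fun i y => Fa l V f a i y + B i y) r = flux (Fa l V f a) r + flux B r :=
    flux_add hr0 cF cB
  rw [f5, f4, f2, f3, f1, Fin.sum_univ_succ]
  simp only [xi, Fin.cons_zero, Fin.cons_succ, mul_add, mul_sub, Finset.sum_add_distrib,
    Finset.sum_sub_distrib]
  ring

end Vale.Agent.P366.KSS
end
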